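import Vale.Agent.P330.Main

namespace Vale.Agent.P330

open Finset

variable {V T : Type}

open Classical in
theorem sat_update (C : Circuit V T) (ε : ℚ) (x : V → ℚ) (s t : T) (y : ℚ)
    (hst : s ≠ t) (h : ¬ C.reads s t) :
    C.sat ε (Function.update x (C.out t) y) s ↔ C.sat ε x s := by
  have ho : C.out s ≠ C.out t := fun h' => hst (C.inj h')
  unfold Circuit.reads at h
  unfold Circuit.sat Sat
  cases hk : C.kind s with
  | const α => simp [Function.update_of_ne ho]
  | scale α => rw [hk] at h; simp [Function.update_of_ne ho, Function.update_of_ne h]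
  | copy => rw [hk] at h; simp [Function.update_of_ne ho, Function.update_of_ne h]
  | not => rw [hk] at h; simp only [Function.update_of_ne ho, Function.update_of_ne h]
  | add =>
    rw [hk] at h; simp only [not_or] at h
    simp only [Function.update_of_ne ho, Function.update_of_ne h.1, Function.update_of_ne h.2]
  | sub =>
    rw [hk] at h; simp only [not_or] at h
    simp only [Function.update_of_ne ho, Function.update_of_ne h.1, Function.update_of_ne h.2]
  | less =>
    rw [hk] at h; simp only [not_or] at h
    simp only [Function.update_of_ne ho, Function.update_of_ne h.1, Function.update_of_ne h.2]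
  | or =>
    rw [hk] at h; simp only [not_or] at h
    simp only [Function.update_of_ne ho, Function.update_of_ne h.1, Function.update_of_ne h.2]
  | and =>
    rw [hk] at h; simp only [not_or] at h
    simp only [Function.update_of_ne ho, Function.update_of_ne h.1, Function.update_of_ne h.2]

open Classical in
theorem eval (C : Circuit V T) (ε : ℚ) (hε : 0 < ε) (hε1 : ε < 1 / 2) (m : ℕ) (hm : 1 ≤ ε * m)
    (A : Finset T) (hA : C.Acyclic A) : ∃ x : V → ℚ, OnGrid m x ∧ ∀ t ∈ A, C.sat ε x t := by
  obtain ⟨r, hr⟩ := hA
  induction hn : A.card generalizing A with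
  | zero =>
    rw [card_eq_zero] at hn
    subst hn
    exact ⟨fun _ => 0, fun _ => G_zero m, by simp⟩
  | succ n ih =>
    have hne : A.Nonempty := by rw [← card_pos]; omega
    obtain ⟨t, htA, hmax⟩ := exists_max_image A r hne
    obtain ⟨x, hx, hsat⟩ := ih (A.erase t)
      (fun s hs u hu => hr s (mem_of_mem_erase hs) u (mem_of_mem_erase hu))
      (by rw [card_erase_of_mem htA]; omega)
    obtain ⟨y, hy0, hy⟩ := solve C ε hε hε1 m hm x hx t
    refine ⟨Function.update x (C.out t) y, ?_, ?_⟩
    · intro v
      by_cases hv : v = C.out t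
      · rw [hv, Function.update_self]; exact hy0
      · rw [Function.update_of_ne hv]; exact hx v
    · intro s hs
      by_cases hst : s = t
      · rw [hst]; exact hy
      · rw [sat_update C ε x s t y hst]
        · exact hsat s (mem_erase.2 ⟨hst, hs⟩)
        · intro hreads
          exact absurd (hr t htA s hs (Ne.symm hst) hreads) (not_lt.2 (hmax s hs))

open Classical in
theorem reads_card (C : Circuit V T) (S : Finset T) (t : T) :
    (S.filter fun v => t ≠ v ∧ C.reads t v).card ≤ 2 := by
  have h1 : (S.filter fun v => t ≠ v ∧ C.reads t v) ⊆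
      (S.filter fun v => C.a t = C.out v) ∪ (S.filter fun v => C.b t = C.out v) := by
    intro v hv
    rw [mem_filter] at hv
    rw [mem_union, mem_filter, mem_filter]
    have h := hv.2.2
    unfold Circuit.reads at h
    cases hk : C.kind t <;> rw [hk] at h <;> simp only at h <;> tauto
  have h2 : ∀ w : V, (S.filter fun v => w = C.out v).card ≤ 1 := by
    intro w
    rw [card_le_one]
    intro u hu v hv
    rw [mem_filter] at hu hv
    exact C.inj (hu.2.symm.trans hv.2)
  refine (card_le_card h1).trans ((card_union_le _ _).trans ?_)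
  have := h2 (C.a t)
  have := h2 (C.b t)
  omega

open Classical in
theorem few_readers (C : Circuit V T) (S : Finset T) (hS : S.Nonempty) :
    ∃ v ∈ S, (S.filter fun t => t ≠ v ∧ C.reads t v).card ≤ 2 := by
  by_contra hcon
  push Not at hcon
  have h1 : ∑ v ∈ S, (S.filter fun t => t ≠ v ∧ C.reads t v).card =
      ∑ t ∈ S, (S.filter fun v => t ≠ v ∧ C.reads t v).card := by
    simp only [card_filter]
    rw [sum_comm]
  have h2 : S.card * 3 ≤ ∑ v ∈ S, (S.filter fun t => t ≠ v ∧ C.reads t v).card := by
    rw [← smul_eq_mul, ← sum_const]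
    exact sum_le_sum fun v hv => hcon v hv
  have h3 : ∑ t ∈ S, (S.filter fun v => t ≠ v ∧ C.reads t v).card ≤ S.card * 2 := by
    rw [← smul_eq_mul, ← sum_const]
    exact sum_le_sum fun t _ => reads_card C S t
  have := hS.card_pos
  omega

open Classical in
theorem third (C : Circuit V T) (S : Finset T) :
    ∃ A ⊆ S, C.Acyclic A ∧ S.card ≤ 3 * A.card := by
  induction hn : S.card using Nat.strong_induction_on generalizing S with
  | _ n ih =>
    rcases S.eq_empty_or_nonempty with rfl | hne
    · exact ⟨∅, subset_rfl, ⟨fun _ => 0, by simp⟩, by simp at hn; omega⟩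
    obtain ⟨v, hv, hc⟩ := few_readers C S hne
    set R := S.filter fun t => t ≠ v ∧ C.reads t v with hR
    set S' := S \ (insert v R) with hS'
    have hsub : insert v R ⊆ S := by
      intro x hx
      rcases mem_insert.1 hx with rfl | hx
      · exact hv
      · exact (mem_filter.1 hx).1
    have hcard : S'.card = S.card - (insert v R).card := card_sdiff_of_subset hsub
    have hle : (insert v R).card ≤ 3 := (card_insert_le _ _).trans (by omega)
    have hpos : 0 < (insert v R).card := (insert_nonempty _ _).card_pos
    have hle2 := card_le_card hsub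
    obtain ⟨A', hA', ⟨r, hr⟩, h3⟩ := ih S'.card (by omega) S' rfl
    have hvA : v ∉ A' := fun h => (mem_sdiff.1 (hA' h)).2 (mem_insert_self _ _)
    refine ⟨insert v A', ?_, ⟨fun t => if t = v then A'.sup r + 1 else r t, ?_⟩, ?_⟩
    · intro x hx
      rcases mem_insert.1 hx with rfl | hx
      · exact hv
      · exact (mem_sdiff.1 (hA' hx)).1
    · intro s hs t ht hst hreads
      rcases mem_insert.1 ht with rfl | ht'
      · rcases mem_insert.1 hs with rfl | hs'
        · exact absurd rfl hst
        · simp only [if_neg hst, if_true]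
          exact Nat.lt_succ_of_le (le_sup hs')
      · have htv : t ≠ v := fun h => hvA (h ▸ ht')
        rcases mem_insert.1 hs with rfl | hs'
        · exfalso
          have h5 := mem_sdiff.1 (hA' ht')
          apply h5.2
          rw [mem_insert]; right
          rw [hR, mem_filter]
          exact ⟨h5.1, htv, hreads⟩
        · have hsv : s ≠ v := fun h => hvA (h ▸ hs')
          simp only [if_neg htv, if_neg hsv]
          exact hr s hs' t ht' hst hreads
    · rw [card_insert_of_notMem hvA]
      omega

open Classical in
theorem with_const [Fintype T] (C : Circuit V T) (A : Finset T) (hA : C.Acyclic A) :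
    C.Acyclic ((univ.filter fun t => C.isConst t) ∪ A) := by
  obtain ⟨r, hr⟩ := hA
  refine ⟨fun t => if C.isConst t then 0 else r t + 1, ?_⟩
  intro s hs t ht hst hreads
  have htc : ¬ C.isConst t := by
    intro h
    unfold Circuit.isConst at h
    unfold Circuit.reads at hreads
    cases hk : C.kind t <;> rw [hk] at h hreads <;> simp only at h hreads
  simp only [if_neg htc]
  by_cases hsc : C.isConst s
  · simp only [if_pos hsc]; omega
  · simp only [if_neg hsc]
    have hs' : s ∈ A := by
      rcases mem_union.1 hs with h | h
      · exact absurd (mem_filter.1 h).2 hsc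
      · exact h
    have ht' : t ∈ A := by
      rcases mem_union.1 ht with h | h
      · exact absurd (mem_filter.1 h).2 htc
      · exact h
    have := hr s hs' t ht' hst hreads
    omega

open Classical in
theorem three_sevenths [Fintype T] (C : Circuit V T) (ε : ℚ) (hε : 0 < ε) (hε1 : ε < 1 / 2)
    (m : ℕ) (hm : 1 ≤ ε * m) : ∃ x : V → ℚ, OnGrid m x ∧
      3 * Fintype.card T ≤ 7 * (univ.filter fun t => C.sat ε x t).card := by
  obtain ⟨A, hA, hac, h3⟩ := third C (univ.filter fun t => ¬ C.isConst t)
  set Cst := univ.filter (fun t : T => C.isConst t) with hCst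
  have hT : Cst.card + (univ.filter fun t : T => ¬ C.isConst t).card = Fintype.card T := by
    rw [hCst, card_filter_add_card_filter_not, card_univ]
  have hpq : (univ.filter fun t : T => ¬ C.isConst t).card ≤
      (univ.filter fun t : T => ¬ C.constNot t).card + (univ.filter fun t : T => ¬ C.arith t).card := by
    refine (card_le_card ?_).trans (card_union_le _ _)
    intro t ht
    rw [mem_filter] at ht
    rw [mem_union, mem_filter, mem_filter]
    have h := ht.2
    unfold Circuit.isConst at h
    unfold Circuit.constNot Circuit.arith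
    cases hk : C.kind t <;> rw [hk] at h <;> simp_all
  have h0 : OnGrid m (fun _ : V => (0 : ℚ)) := fun _ => G_zero m
  have hh : OnGrid m (fun _ : V => (1 / 2 : ℚ)) := fun _ => G_half (m_pos hm)
  by_cases hp : 3 * Fintype.card T ≤ 7 * (univ.filter fun t : T => ¬ C.constNot t).card
  · refine ⟨_, h0, hp.trans (Nat.mul_le_mul_left 7 (card_le_card ?_))⟩
    intro t ht
    rw [mem_filter] at ht ⊢
    exact ⟨mem_univ _, sat_zero C ε hε hε1 t ht.2⟩
  by_cases hq : 3 * Fintype.card T ≤ 7 * (univ.filter fun t : T => ¬ C.arith t).card
  · refine ⟨_, hh, hq.trans (Nat.mul_le_mul_left 7 (card_le_card ?_))⟩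
    intro t ht
    rw [mem_filter] at ht ⊢
    exact ⟨mem_univ _, sat_half C ε hε hε1 t ht.2⟩
  obtain ⟨x, hx, hsat⟩ := eval C ε hε hε1 m hm _ (with_const C A hac)
  refine ⟨x, hx, ?_⟩
  have h4 : (Cst ∪ A).card ≤ (univ.filter fun t => C.sat ε x t).card :=
    card_le_card fun t ht => by rw [mem_filter]; exact ⟨mem_univ _, hsat t ht⟩
  have h5 : (Cst ∪ A).card = Cst.card + A.card := by
    rw [card_union_of_disjoint]
    rw [disjoint_left]
    intro t ht htA
    exact (mem_filter.1 (hA htA)).2 (mem_filter.1 ht).2
  omega

end Vale.Agent.P330
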