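import Mathlib

/-! P330: generalized circuits and `ε`-satisfaction. -/

namespace Vale.Agent.P330

/-- the kinds of gates -/
inductive Kind
  | const (α : ℚ)
  | scale (α : ℚ)
  | copy
  | add
  | sub
  | less
  | not
  | or
  | and

/-- A generalized circuit on the node set `V` with gates `T`: each gate has a kind, an output node
and two input nodes `a t`, `b t` (`b` is ignored by the gates with one input, both by constants);
each node is the output of at most one gate; the parameters are in `[0,1]`. -/
structure Circuit (V T : Type) where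
  kind : T → Kind
  out : T → V
  a : T → V
  b : T → V
  inj : Function.Injective out
  param : ∀ t α, (kind t = Kind.const α ∨ kind t = Kind.scale α) → 0 ≤ α ∧ α ≤ 1

variable {V T : Type}

/-- `ε`-satisfaction of a gate of kind `k` with inputs `p`, `q` and output `z` -/
def Sat (ε : ℚ) (k : Kind) (p q z : ℚ) : Prop :=
  match k with
  | Kind.const α => |z - α| ≤ ε
  | Kind.scale α => |z - α * p| ≤ ε
  | Kind.copy => |z - p| ≤ ε
  | Kind.add => |z - min (p + q) 1| ≤ ε
  | Kind.sub => |z - max (p - q) 0| ≤ ε
  | Kind.less => (p < q - ε → 1 - ε ≤ z) ∧ (q + ε < p → z ≤ ε)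
  | Kind.not => (p ≤ ε → 1 - ε ≤ z) ∧ (1 - ε ≤ p → z ≤ ε)
  | Kind.or => ((1 - ε ≤ p ∨ 1 - ε ≤ q) → 1 - ε ≤ z) ∧ ((p ≤ ε ∧ q ≤ ε) → z ≤ ε)
  | Kind.and => ((1 - ε ≤ p ∧ 1 - ε ≤ q) → 1 - ε ≤ z) ∧ ((p ≤ ε ∨ q ≤ ε) → z ≤ ε)

/-- the gate `t` is `ε`-satisfied by the assignment `x` -/
def Circuit.sat (C : Circuit V T) (ε : ℚ) (x : V → ℚ) (t : T) : Prop :=
  Sat ε (C.kind t) (x (C.a t)) (x (C.b t)) (x (C.out t))

/-- `x` is an assignment whose values are multiples of `1 / (2 m)` in `[0,1]` -/
def OnGrid (m : ℕ) (x : V → ℚ) : Prop := ∀ v, ∃ j : ℕ, j ≤ 2 * m ∧ x v = j / (2 * m)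

/-- the gate `t` reads the output of the gate `s` -/
def Circuit.reads (C : Circuit V T) (t s : T) : Prop :=
  match C.kind t with
  | Kind.const _ => False
  | Kind.scale _ | Kind.copy | Kind.not => C.a t = C.out s
  | _ => C.a t = C.out s ∨ C.b t = C.out s

/-- constant and negation gates -/
def Circuit.constNot (C : Circuit V T) (t : T) : Prop :=
  match C.kind t with
  | Kind.const _ | Kind.not => True
  | _ => False

/-- constant, scale, add and subtract gates -/
def Circuit.arith (C : Circuit V T) (t : T) : Prop :=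
  match C.kind t with
  | Kind.const _ | Kind.scale _ | Kind.add | Kind.sub => True
  | _ => False

/-- constant gates -/
def Circuit.isConst (C : Circuit V T) (t : T) : Prop :=
  match C.kind t with
  | Kind.const _ => True
  | _ => False

/-- The gates of `A` do not read each other in a directed cycle of length at least two (a gate of
`A` may read its own output). -/
def Circuit.Acyclic (C : Circuit V T) (A : Finset T) : Prop :=
  ∃ r : T → ℕ, ∀ s ∈ A, ∀ t ∈ A, s ≠ t → C.reads t s → r s < r t

end Vale.Agent.P330
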