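import Vale.Agent.P330.Defs

namespace Vale.Agent.P330

variable {V T : Type}

theorem sat_half_big (C : Circuit V T) (ε : ℚ) (hε : 1 / 2 ≤ ε) (t : T) :
    C.sat ε (fun _ => 1 / 2) t := by
  have hp := C.param t
  unfold Circuit.sat Sat
  cases hk : C.kind t with
  | const α =>
    obtain ⟨h0, h1⟩ := hp α (Or.inl hk)
    simp only [abs_le]; constructor <;> linarith
  | scale α =>
    obtain ⟨h0, h1⟩ := hp α (Or.inr hk)
    simp only [abs_le]; constructor <;> linarith
  | copy => simp; linarith
  | add => norm_num [abs_le]; linarith
  | sub => norm_num [abs_le]; linarith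
  | less => simp only; constructor <;> intro h <;> linarith
  | not => simp only; constructor <;> intro h <;> linarith
  | or => simp only; constructor <;> intro h <;> linarith
  | and => simp only; constructor <;> intro h <;> linarith

theorem sat_zero (C : Circuit V T) (ε : ℚ) (hε : 0 < ε) (hε1 : ε < 1 / 2) (t : T)
    (ht : ¬ C.constNot t) : C.sat ε (fun _ => 0) t := by
  unfold Circuit.sat Sat
  unfold Circuit.constNot at ht
  cases hk : C.kind t with
  | const α => rw [hk] at ht; exact absurd trivial ht
  | scale α => simp; linarith
  | copy => simp; linarith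
  | add => simp; linarith
  | sub => simp; linarith
  | less => simp only; constructor <;> intro h <;> linarith
  | not => rw [hk] at ht; exact absurd trivial ht
  | or =>
    simp only
    constructor
    · rintro (h | h) <;> linarith
    · intro _; linarith
  | and =>
    simp only
    constructor
    · rintro ⟨h, -⟩; linarith
    · intro _; linarith

theorem sat_half (C : Circuit V T) (ε : ℚ) (hε : 0 < ε) (hε1 : ε < 1 / 2) (t : T)
    (ht : ¬ C.arith t) : C.sat ε (fun _ => 1 / 2) t := by
  unfold Circuit.sat Sat
  unfold Circuit.arith at ht
  cases hk : C.kind t with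
  | const α => rw [hk] at ht; exact absurd trivial ht
  | scale α => rw [hk] at ht; exact absurd trivial ht
  | copy => simp; linarith
  | add => rw [hk] at ht; exact absurd trivial ht
  | sub => rw [hk] at ht; exact absurd trivial ht
  | less => simp only; constructor <;> intro h <;> linarith
  | not => simp only; constructor <;> intro h <;> linarith
  | or =>
    simp only
    constructor
    · rintro (h | h) <;> linarith
    · rintro ⟨h, -⟩; linarith
  | and =>
    simp only
    constructor
    · rintro ⟨h, -⟩; linarith
    · rintro (h | h) <;> linarith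

/-- being a multiple of `1 / (2 m)` in `[0,1]` -/
def G (m : ℕ) (y : ℚ) : Prop := ∃ j : ℕ, j ≤ 2 * m ∧ y = j / (2 * m)

theorem m_pos {ε : ℚ} {m : ℕ} (hm : 1 ≤ ε * m) : (0 : ℚ) < m := by
  rcases Nat.eq_zero_or_pos m with h | h
  · rw [h] at hm; simp at hm; linarith
  · exact_mod_cast h

theorem G.range {m : ℕ} {y : ℚ} (h : G m y) (hm : (0 : ℚ) < m) : 0 ≤ y ∧ y ≤ 1 := by
  obtain ⟨j, hj, rfl⟩ := h
  have hj' : (j : ℚ) ≤ 2 * m := by exact_mod_cast hj
  exact ⟨by positivity, by rw [div_le_one (by positivity)]; exact hj'⟩

theorem G_zero (m : ℕ) : G m 0 := ⟨0, by omega, by simp⟩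

theorem G_one {m : ℕ} (hm : (0 : ℚ) < m) : G m 1 :=
  ⟨2 * m, le_rfl, by push_cast; rw [div_self (by positivity)]⟩

theorem G_half {m : ℕ} (hm : (0 : ℚ) < m) : G m (1 / 2) :=
  ⟨m, by omega, by field_simp⟩

theorem rnd {ε : ℚ} {m : ℕ} (hm : 1 ≤ ε * m) (y : ℚ) (h0 : 0 ≤ y) (h1 : y ≤ 1) :
    ∃ y', G m y' ∧ y' ≤ y ∧ y - ε / 2 ≤ y' := by
  have hm0 := m_pos hm
  refine ⟨(⌊y * (2 * m)⌋₊ : ℚ) / (2 * m), ⟨_, ?_, rfl⟩, ?_, ?_⟩
  · have h2 : ⌊y * (2 * m)⌋₊ ≤ ⌊((2 * m : ℕ) : ℚ)⌋₊ := by
      apply Nat.floor_le_floor
      push_cast
      nlinarith
    rwa [Nat.floor_natCast] at h2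
  · rw [div_le_iff₀ (by positivity)]
    exact Nat.floor_le (by positivity)
  · rw [le_div_iff₀ (by positivity)]
    have h3 := Nat.lt_floor_add_one (y * (2 * m))
    nlinarith

open Classical in
/-- one gate can always be satisfied by its output, even if it reads its own output -/
theorem solve (C : Circuit V T) (ε : ℚ) (hε : 0 < ε) (hε1 : ε < 1 / 2) (m : ℕ)
    (hm : 1 ≤ ε * m) (x : V → ℚ) (hx : OnGrid m x) (t : T) :
    ∃ y : ℚ, G m y ∧ C.sat ε (Function.update x (C.out t) y) t := by
  have hp := C.param t
  have hm0 := m_pos hm
  have hGa : G m (x (C.a t)) := hx (C.a t)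
  have hGb : G m (x (C.b t)) := hx (C.b t)
  obtain ⟨ha0, ha1⟩ := hGa.range hm0
  obtain ⟨hb0, hb1⟩ := hGb.range hm0
  unfold Circuit.sat Sat
  by_cases ha : C.a t = C.out t <;> by_cases hb : C.b t = C.out t
  · cases hk : C.kind t with
    | const α =>
      obtain ⟨h0, h1⟩ := hp α (Or.inl hk)
      obtain ⟨y, hy, hy1, hy2⟩ := rnd hm α h0 h1
      exact ⟨y, hy, by
        simp only [Function.update_self]; rw [abs_le]; constructor <;> linarith⟩
    | scale α => exact ⟨0, G_zero m, by simp [ha]; linarith⟩
    | copy => exact ⟨0, G_zero m, by simp [ha]; linarith⟩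
    | add => exact ⟨0, G_zero m, by simp [ha, hb]; linarith⟩
    | sub => exact ⟨0, G_zero m, by simp [ha, hb]; linarith⟩
    | less => exact ⟨0, G_zero m, by
        simp only [ha, hb, Function.update_self]; constructor <;> intro h <;> linarith⟩
    | not => exact ⟨1 / 2, G_half hm0, by
        simp only [ha, Function.update_self]; constructor <;> intro h <;> linarith⟩
    | or => exact ⟨0, G_zero m, by
        simp only [ha, hb, Function.update_self]
        constructor
        · rintro (h | h) <;> linarith
        · intro _; linarith⟩
    | and => exact ⟨0, G_zero m, by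
        simp only [ha, hb, Function.update_self]
        constructor
        · rintro ⟨h, -⟩; linarith
        · intro _; linarith⟩
  · cases hk : C.kind t with
    | const α =>
      obtain ⟨h0, h1⟩ := hp α (Or.inl hk)
      obtain ⟨y, hy, hy1, hy2⟩ := rnd hm α h0 h1
      exact ⟨y, hy, by
        simp only [Function.update_self]; rw [abs_le]; constructor <;> linarith⟩
    | scale α => exact ⟨0, G_zero m, by simp [ha]; linarith⟩
    | copy => exact ⟨0, G_zero m, by simp [ha]; linarith⟩
    | add => exact ⟨1, G_one hm0, by
        simp only [ha, Function.update_self, Function.update_of_ne hb]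
        rw [min_eq_right (by linarith)]; simp; linarith⟩
    | sub => exact ⟨0, G_zero m, by
        simp only [ha, Function.update_self, Function.update_of_ne hb]
        rw [max_eq_right (by linarith)]; simp; linarith⟩
    | less => exact ⟨x (C.b t), hGb, by
        simp only [ha, Function.update_self, Function.update_of_ne hb]
        constructor <;> intro h <;> linarith⟩
    | not => exact ⟨1 / 2, G_half hm0, by
        simp only [ha, Function.update_self]; constructor <;> intro h <;> linarith⟩
    | or => exact ⟨1, G_one hm0, by
        simp only [ha, Function.update_self, Function.update_of_ne hb]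
        constructor
        · intro _; linarith
        · rintro ⟨h, -⟩; linarith⟩
    | and => exact ⟨0, G_zero m, by
        simp only [ha, Function.update_self, Function.update_of_ne hb]
        constructor
        · rintro ⟨h, -⟩; linarith
        · intro _; linarith⟩
  · cases hk : C.kind t with
    | const α =>
      obtain ⟨h0, h1⟩ := hp α (Or.inl hk)
      obtain ⟨y, hy, hy1, hy2⟩ := rnd hm α h0 h1
      exact ⟨y, hy, by
        simp only [Function.update_self]; rw [abs_le]; constructor <;> linarith⟩
    | scale α =>
      obtain ⟨h0, h1⟩ := hp α (Or.inr hk)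
      obtain ⟨y, hy, hy1, hy2⟩ := rnd hm (α * x (C.a t)) (mul_nonneg h0 ha0)
        (mul_le_one₀ h1 ha0 ha1)
      exact ⟨y, hy, by
        simp only [Function.update_self, Function.update_of_ne ha]
        rw [abs_le]; constructor <;> linarith⟩
    | copy => exact ⟨x (C.a t), hGa, by
        simp only [Function.update_self, Function.update_of_ne ha]; simp; linarith⟩
    | add => exact ⟨1, G_one hm0, by
        simp only [hb, Function.update_self, Function.update_of_ne ha]
        rw [min_eq_right (by linarith)]; simp; linarith⟩
    | sub =>
      obtain ⟨y, hy, hy1, hy2⟩ := rnd hm (x (C.a t) / 2) (by linarith) (by linarith)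
      exact ⟨y, hy, by
        simp only [hb, Function.update_self, Function.update_of_ne ha]
        rw [max_eq_left (by linarith), abs_le]; constructor <;> linarith⟩
    | less => exact ⟨x (C.a t), hGa, by
        simp only [hb, Function.update_self, Function.update_of_ne ha]
        constructor <;> intro h <;> linarith⟩
    | not =>
      refine ⟨if x (C.a t) ≤ ε then 1 else 0,
        by split_ifs; exacts [G_one hm0, G_zero m], ?_⟩
      simp only [Function.update_self, Function.update_of_ne ha]
      split_ifs with h
      · exact ⟨fun _ => by linarith, fun h' => by linarith⟩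
      · exact ⟨fun h' => absurd h' h, fun _ => by linarith⟩
    | or => exact ⟨1, G_one hm0, by
        simp only [hb, Function.update_self, Function.update_of_ne ha]
        constructor
        · intro _; linarith
        · rintro ⟨-, h⟩; linarith⟩
    | and => exact ⟨0, G_zero m, by
        simp only [hb, Function.update_self, Function.update_of_ne ha]
        constructor
        · rintro ⟨-, h⟩; linarith
        · intro _; linarith⟩
  · cases hk : C.kind t with
    | const α =>
      obtain ⟨h0, h1⟩ := hp α (Or.inl hk)
      obtain ⟨y, hy, hy1, hy2⟩ := rnd hm α h0 h1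
      exact ⟨y, hy, by
        simp only [Function.update_self]; rw [abs_le]; constructor <;> linarith⟩
    | scale α =>
      obtain ⟨h0, h1⟩ := hp α (Or.inr hk)
      obtain ⟨y, hy, hy1, hy2⟩ := rnd hm (α * x (C.a t)) (mul_nonneg h0 ha0)
        (mul_le_one₀ h1 ha0 ha1)
      exact ⟨y, hy, by
        simp only [Function.update_self, Function.update_of_ne ha]
        rw [abs_le]; constructor <;> linarith⟩
    | copy => exact ⟨x (C.a t), hGa, by
        simp only [Function.update_self, Function.update_of_ne ha]; simp; linarith⟩
    | add =>
      obtain ⟨y, hy, hy1, hy2⟩ := rnd hm (min (x (C.a t) + x (C.b t)) 1)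
        (le_min (by linarith) (by norm_num)) (min_le_right _ _)
      exact ⟨y, hy, by
        simp only [Function.update_self, Function.update_of_ne ha, Function.update_of_ne hb]
        rw [abs_le]; constructor <;> linarith⟩
    | sub =>
      obtain ⟨y, hy, hy1, hy2⟩ := rnd hm (max (x (C.a t) - x (C.b t)) 0)
        (le_max_right _ _) (max_le (by linarith) (by norm_num))
      exact ⟨y, hy, by
        simp only [Function.update_self, Function.update_of_ne ha, Function.update_of_ne hb]
        rw [abs_le]; constructor <;> linarith⟩
    | less =>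
      refine ⟨if x (C.a t) < x (C.b t) - ε then 1 else 0,
        by split_ifs; exacts [G_one hm0, G_zero m], ?_⟩
      simp only [Function.update_self, Function.update_of_ne ha, Function.update_of_ne hb]
      split_ifs with h
      · exact ⟨fun _ => by linarith, fun h' => by linarith⟩
      · exact ⟨fun h' => absurd h' h, fun _ => by linarith⟩
    | not =>
      refine ⟨if x (C.a t) ≤ ε then 1 else 0,
        by split_ifs; exacts [G_one hm0, G_zero m], ?_⟩
      simp only [Function.update_self, Function.update_of_ne ha]
      split_ifs with h
      · exact ⟨fun _ => by linarith, fun h' => by linarith⟩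
      · exact ⟨fun h' => absurd h' h, fun _ => by linarith⟩
    | or =>
      refine ⟨if 1 - ε ≤ x (C.a t) ∨ 1 - ε ≤ x (C.b t) then 1 else 0,
        by split_ifs; exacts [G_one hm0, G_zero m], ?_⟩
      simp only [Function.update_self, Function.update_of_ne ha, Function.update_of_ne hb]
      split_ifs with h
      · refine ⟨fun _ => by linarith, fun h' => ?_⟩
        rcases h with h | h <;> linarith [h'.1, h'.2]
      · exact ⟨fun h' => absurd h' h, fun _ => by linarith⟩
    | and =>
      refine ⟨if x (C.a t) ≤ ε ∨ x (C.b t) ≤ ε then 0 else 1,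
        by split_ifs; exacts [G_zero m, G_one hm0], ?_⟩
      simp only [Function.update_self, Function.update_of_ne ha, Function.update_of_ne hb]
      split_ifs with h
      · refine ⟨fun h' => ?_, fun _ => by linarith⟩
        rcases h with h | h <;> linarith [h'.1, h'.2]
      · exact ⟨fun _ => by linarith, fun h' => absurd h' h⟩

end Vale.Agent.P330
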